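import Vale.Agent.P248Z.Lens.Main
import Vale.Agent.P248Z.Geo.Main

/-!
# The lens data in the form used by the geometric block
-/

namespace Vale.Agent.P248Z.Lens

open Complex Metric Set

theorem profile_lam : Geo.Profile lam :=
  ⟨continuous_lam, lam_neg, concaveOn_lam, lam_zero_pos⟩

theorem lensData : Geo.LensData F lam where
  incl := fun _ hw => mapsTo_F_closedBall hw
  re := fun _ ht => re_F_exp ht
  im_pos := fun t h0 h1 => by
    rw [abs_of_nonneg h0]; exact im_F_exp_of_nonneg ⟨h0, h1⟩
  im_neg := fun t h0 h1 => by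
    rw [abs_of_nonpos h1]; exact im_F_exp_of_nonpos ⟨h0, h1⟩

theorem injOn_F_ball : InjOn F (ball 0 1) := injOn_F.mono ball_subset_closedBall

theorem deriv_F_ne_zero' : ∀ w ∈ ball (0 : ℂ) 1, deriv F w ≠ 0 :=
  fun _ hw => deriv_F_ne_zero (by simpa using hw)

theorem input_of_inputTheta {n : ℕ} (h : Geo.InputTheta F n) : Geo.Input lam n :=
  Geo.input_of_theta lensData h

end Vale.Agent.P248Z.Lens
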