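import Vale.Agent.P248Z.Lens.Boundary
import Mathlib.Analysis.Calculus.InverseFunctionTheorem.Deriv
import Mathlib.Analysis.Calculus.Deriv.Inverse

/-!
# The lens: `F` maps the disc onto the lens; the inverse map `g`
-/

namespace Vale.Agent.P248Z.Lens

open Complex Metric Set Filter Topology

theorem isOpen_Om : IsOpen Om := by
  have h1 : IsOpen {w : ℂ | |w.re| < 1} := isOpen_lt (by fun_prop) continuous_const
  have h2 : IsOpen {w : ℂ | |w.im| < lam w.re} :=
    isOpen_lt (by fun_prop) (continuous_lam.comp continuous_re)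
  exact h1.inter h2

theorem isClosed_OmC : IsClosed OmC := by
  have h1 : IsClosed {w : ℂ | |w.re| ≤ 1} := isClosed_le (by fun_prop) continuous_const
  have h2 : IsClosed {w : ℂ | |w.im| ≤ lam w.re} :=
    isClosed_le (by fun_prop) (continuous_lam.comp continuous_re)
  exact h1.inter h2

theorem Om_subset_OmC : Om ⊆ OmC := fun _ hw => ⟨hw.1.le, hw.2.le⟩

theorem zero_mem_Om : (0 : ℂ) ∈ Om := ⟨by simp, by simpa using lam_zero_pos⟩

theorem zero_mem_OmC : (0 : ℂ) ∈ OmC := Om_subset_OmC zero_mem_Om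

theorem mem_Om_iff {w : ℂ} : w ∈ Om ↔ |w.im| < lam w.re := by
  refine ⟨fun h => h.2, fun h => ⟨?_, h⟩⟩
  by_contra hc
  rw [lam_of_one_le_abs (not_lt.1 hc)] at h
  exact absurd h (not_lt.2 (abs_nonneg _))

theorem neg_mem_Om {w : ℂ} (hw : w ∈ Om) : -w ∈ Om :=
  ⟨by simpa using hw.1, by simpa [lam_neg] using hw.2⟩

theorem neg_mem_OmC {w : ℂ} (hw : w ∈ OmC) : -w ∈ OmC :=
  ⟨by simpa using hw.1, by simpa [lam_neg] using hw.2⟩

theorem convex_Om : Convex ℝ Om := by
  intro x hx y hy a b ha hb hab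
  have hx1 := abs_lt.1 hx.1
  have hy1 := abs_lt.1 hy.1
  have hc := concaveOn_lam.2 (show x.re ∈ Icc (-1 : ℝ) 1 from ⟨hx1.1.le, hx1.2.le⟩)
    (show y.re ∈ Icc (-1 : ℝ) 1 from ⟨hy1.1.le, hy1.2.le⟩) ha hb hab
  rw [mem_Om_iff]
  simp only [add_im, add_re, smul_im, smul_re, smul_eq_mul] at hc ⊢
  refine lt_of_lt_of_le ?_ hc
  refine lt_of_le_of_lt (abs_add_le _ _) ?_
  rw [abs_mul, abs_mul, abs_of_nonneg ha, abs_of_nonneg hb]
  have h1 := hx.2
  have h2 := hy.2
  rcases ha.eq_or_lt with rfl | ha'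
  · have : b = 1 := by linarith
    subst this
    simpa using h2
  · have := mul_lt_mul_of_pos_left h1 ha'
    have := mul_le_mul_of_nonneg_left h2.le hb
    linarith

theorem convex_OmC : Convex ℝ OmC := by
  intro x hx y hy a b ha hb hab
  have hx1 := abs_le.1 hx.1
  have hy1 := abs_le.1 hy.1
  have hc := concaveOn_lam.2 (show x.re ∈ Icc (-1 : ℝ) 1 from hx1)
    (show y.re ∈ Icc (-1 : ℝ) 1 from hy1) ha hb hab
  constructor
  · simp only [add_re, smul_re, smul_eq_mul]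
    rw [abs_le]
    constructor <;> nlinarith
  · simp only [add_im, add_re, smul_im, smul_re, smul_eq_mul] at hc ⊢
    refine le_trans ?_ hc
    refine le_trans (abs_add_le _ _) ?_
    rw [abs_mul, abs_mul, abs_of_nonneg ha, abs_of_nonneg hb]
    have := mul_le_mul_of_nonneg_left hx.2 ha
    have := mul_le_mul_of_nonneg_left hy.2 hb
    linarith

theorem mem_OmC_diff_Om {w : ℂ} : w ∈ OmC \ Om ↔ |w.re| ≤ 1 ∧ |w.im| = lam w.re := by
  rw [Set.mem_sdiff, mem_Om_iff]
  constructor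
  · rintro ⟨h1, h2⟩
    exact ⟨h1.1, le_antisymm h1.2 (not_lt.1 h2)⟩
  · rintro ⟨h1, h2⟩
    exact ⟨⟨h1, h2.le⟩, not_lt.2 h2.ge⟩

theorem F_exp_mem {t : ℝ} (ht : |t| ≤ Real.pi) : F (exp ((t : ℂ) * I)) ∈ OmC \ Om := by
  rw [mem_OmC_diff_Om]
  refine ⟨?_, abs_im_F_exp' ht⟩
  have hpi := Real.pi_pos
  rw [re_F_exp ht, abs_le]
  have h1 : 2 * |t| / Real.pi ≤ 2 := by rw [div_le_iff₀ hpi]; linarith
  have h0 : 0 ≤ 2 * |t| / Real.pi := by positivity
  constructor <;> linarith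

theorem image_sphere : F '' sphere 0 1 = OmC \ Om := by
  apply Subset.antisymm
  · rintro _ ⟨w, hw, rfl⟩
    have hw1 : ‖w‖ = 1 := by simpa using hw
    have : w = exp ((arg w : ℂ) * I) := by
      have := norm_mul_exp_arg_mul_I w
      rw [hw1] at this
      simpa using this.symm
    rw [this]
    exact F_exp_mem (abs_arg_le_pi w)
  · intro w hw
    rw [mem_OmC_diff_Om] at hw
    have hpi := Real.pi_pos
    obtain ⟨h1, h2⟩ := abs_le.1 hw.1
    set t : ℝ := Real.pi * (1 - w.re) / 2 with ht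
    have ht0 : 0 ≤ t := by
      have : 0 ≤ 1 - w.re := by linarith
      positivity
    have ht1 : t ≤ Real.pi := by rw [ht]; nlinarith
    have hq : 1 - 2 * t / Real.pi = w.re := by rw [ht]; field_simp; ring
    rcases le_total 0 w.im with h | h
    · refine ⟨exp ((t : ℂ) * I), by simp, ?_⟩
      apply Complex.ext
      · rw [re_F_exp_of_nonneg ⟨ht0, ht1⟩, hq]
      · rw [im_F_exp_of_nonneg ⟨ht0, ht1⟩, hq, ← hw.2, abs_of_nonneg h]
    · refine ⟨exp (((-t : ℝ) : ℂ) * I), by simp [-ofReal_neg], ?_⟩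
      rw [F_exp_neg]
      apply Complex.ext
      · rw [conj_re, re_F_exp_of_nonneg ⟨ht0, ht1⟩, hq]
      · rw [conj_im, im_F_exp_of_nonneg ⟨ht0, ht1⟩, hq, ← hw.2, abs_of_nonpos h, neg_neg]

theorem map_nhds_F {w : ℂ} (hw : ‖w‖ < 1) : map F (𝓝 w) = 𝓝 (F w) :=
  ((analyticOnNhd_F w (by simpa using hw)).hasStrictDerivAt).map_nhds_eq (deriv_F_ne_zero hw)

theorem isOpen_image_ball : IsOpen (F '' ball 0 1) := by
  rw [isOpen_iff_mem_nhds]
  rintro _ ⟨w, hw, rfl⟩
  rw [← map_nhds_F (by simpa using hw)]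
  exact image_mem_map (isOpen_ball.mem_nhds hw)

theorem isCompact_image_closedBall : IsCompact (F '' closedBall 0 1) :=
  (isCompact_closedBall 0 1).image_of_continuousOn continuousOn_F

theorem image_ball : F '' ball 0 1 = Om := by
  apply Subset.antisymm
  · refine IsPreconnected.subset_left_of_subset_union isOpen_Om isClosed_OmC.isOpen_compl
      (disjoint_compl_right.mono_left Om_subset_OmC) ?_ ⟨0, ⟨0, by simp, F_zero⟩, zero_mem_Om⟩
      ((convex_ball 0 1).isPreconnected.image _ (continuousOn_F.mono ball_subset_closedBall))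
    rintro _ ⟨w, hw, rfl⟩
    by_contra hc
    rw [mem_union, not_or, mem_compl_iff, not_not] at hc
    have : F w ∈ F '' sphere 0 1 := by rw [image_sphere]; exact ⟨hc.2, hc.1⟩
    obtain ⟨z, hz, hzw⟩ := this
    have := injOn_F (sphere_subset_closedBall hz) (ball_subset_closedBall hw) hzw
    rw [this] at hz
    have h1 : ‖w‖ = 1 := by simpa using hz
    have h2 : ‖w‖ < 1 := by simpa using hw
    exact absurd h1 h2.ne
  · refine IsPreconnected.subset_left_of_subset_union isOpen_image_ball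
      isCompact_image_closedBall.isClosed.isOpen_compl
      (disjoint_compl_right.mono_left (image_mono ball_subset_closedBall)) ?_
      ⟨0, zero_mem_Om, ⟨0, by simp, F_zero⟩⟩ convex_Om.isPreconnected
    intro w hw
    by_cases hc : w ∈ F '' closedBall 0 1
    · left
      obtain ⟨z, hz, rfl⟩ := hc
      refine ⟨z, ?_, rfl⟩
      have hz1 : ‖z‖ ≤ 1 := by simpa using hz
      rcases hz1.eq_or_lt with h | h
      · have : F z ∈ OmC \ Om := by rw [← image_sphere]; exact ⟨z, by simpa using h, rfl⟩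
        exact absurd hw this.2
      · simpa using h
    · exact Or.inr hc

theorem image_closedBall : F '' closedBall 0 1 = OmC := by
  rw [← ball_union_sphere, image_union, image_ball, image_sphere, union_sdiff_cancel Om_subset_OmC]

theorem mapsTo_F_ball : MapsTo F (ball 0 1) Om := fun w hw => image_ball ▸ ⟨w, hw, rfl⟩

theorem mapsTo_F_closedBall : MapsTo F (closedBall 0 1) OmC :=
  fun w hw => image_closedBall ▸ ⟨w, hw, rfl⟩

theorem F_mem_Om {w : ℂ} (hw : ‖w‖ < 1) : F w ∈ Om := mapsTo_F_ball (by simpa using hw)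

theorem F_mem_OmC {w : ℂ} (hw : ‖w‖ ≤ 1) : F w ∈ OmC := mapsTo_F_closedBall (by simpa using hw)

theorem isCompact_OmC : IsCompact OmC := image_closedBall ▸ isCompact_image_closedBall

theorem norm_le_one_of_mem_OmC {w : ℂ} (hw : w ∈ OmC) : ‖w‖ ≤ 1 := by
  rw [← image_closedBall] at hw
  obtain ⟨z, hz, rfl⟩ := hw
  have hz1 : ‖z‖ ≤ 1 := by simpa using hz
  exact (norm_F_le hz1).trans hz1

theorem OmC_subset_closedBall : OmC ⊆ closedBall 0 1 := fun w hw => by
  simpa using norm_le_one_of_mem_OmC hw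

theorem closure_Om : closure Om = OmC := by
  apply Subset.antisymm (closure_minimal Om_subset_OmC isClosed_OmC)
  rw [← image_closedBall, ← image_ball, ← closure_ball (0 : ℂ) one_ne_zero]
  refine ContinuousOn.image_closure ?_
  rw [closure_ball (0 : ℂ) one_ne_zero]
  exact continuousOn_F

/-! ### The inverse map -/

theorem g_F {w : ℂ} (hw : ‖w‖ ≤ 1) : g (F w) = w :=
  injOn_F.leftInvOn_invFunOn (by simpa using hw)

theorem F_g {w : ℂ} (hw : w ∈ OmC) : F (g w) = w := by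
  rw [← image_closedBall] at hw
  exact Function.invFunOn_eq hw

theorem norm_g_le_one {w : ℂ} (hw : w ∈ OmC) : ‖g w‖ ≤ 1 := by
  rw [← image_closedBall] at hw
  obtain ⟨z, hz, rfl⟩ := hw
  have hz1 : ‖z‖ ≤ 1 := by simpa using hz
  rwa [g_F hz1]

theorem norm_g_lt_one {w : ℂ} (hw : w ∈ Om) : ‖g w‖ < 1 := by
  rw [← image_ball] at hw
  obtain ⟨z, hz, rfl⟩ := hw
  have hz1 : ‖z‖ < 1 := by simpa using hz
  rwa [g_F hz1.le]

theorem norm_g_eq_one {w : ℂ} (hw : w ∈ OmC \ Om) : ‖g w‖ = 1 := by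
  rw [← image_sphere] at hw
  obtain ⟨z, hz, rfl⟩ := hw
  have hz1 : ‖z‖ = 1 := by simpa using hz
  rwa [g_F hz1.le]

theorem mem_Om_of_norm_g_lt {w : ℂ} (hw : w ∈ OmC) (h : ‖g w‖ < 1) : w ∈ Om := by
  by_contra hc
  exact absurd (norm_g_eq_one ⟨hw, hc⟩) h.ne

theorem mapsTo_g_Om : MapsTo g Om (ball 0 1) := fun _ hw => by simpa using norm_g_lt_one hw

theorem mapsTo_g_OmC : MapsTo g OmC (closedBall 0 1) :=
  fun _ hw => by simpa using norm_g_le_one hw

theorem injOn_g : InjOn g OmC := fun a ha b hb hab => by rw [← F_g ha, ← F_g hb, hab]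

theorem image_g_Om : g '' Om = ball 0 1 := by
  apply Subset.antisymm mapsTo_g_Om.image_subset
  intro w hw
  have hw1 : ‖w‖ < 1 := by simpa using hw
  exact ⟨F w, F_mem_Om hw1, g_F hw1.le⟩

theorem image_g_OmC : g '' OmC = closedBall 0 1 := by
  apply Subset.antisymm mapsTo_g_OmC.image_subset
  intro w hw
  have hw1 : ‖w‖ ≤ 1 := by simpa using hw
  exact ⟨F w, F_mem_OmC hw1, g_F hw1⟩

@[simp] theorem g_zero : g 0 = 0 := by
  have := g_F (w := 0) (by simp)
  rwa [F_zero] at this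

theorem norm_g_sub_le {a b : ℂ} (ha : a ∈ OmC) (hb : b ∈ OmC) :
    ‖g a - g b‖ ≤ Real.pi ^ 2 / 4 * ‖a - b‖ := by
  have := lower_bound (norm_g_le_one ha) (norm_g_le_one hb)
  rw [F_g ha, F_g hb] at this
  have hpi : (0 : ℝ) < Real.pi ^ 2 := by positivity
  calc ‖g a - g b‖ = Real.pi ^ 2 / 4 * (4 / Real.pi ^ 2 * ‖g a - g b‖) := by field_simp
    _ ≤ _ := by gcongr

theorem lipschitzOnWith_g : LipschitzOnWith ⟨Real.pi ^ 2 / 4, by positivity⟩ g OmC :=
  LipschitzOnWith.of_dist_le_mul fun a ha b hb => by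
    rw [dist_eq_norm, dist_eq_norm]; exact norm_g_sub_le ha hb

theorem continuousOn_g : ContinuousOn g OmC := lipschitzOnWith_g.continuousOn

theorem continuousAt_g {w : ℂ} (hw : w ∈ Om) : ContinuousAt g w :=
  continuousOn_g.continuousAt (mem_of_superset (isOpen_Om.mem_nhds hw) Om_subset_OmC)

theorem norm_g_le {w : ℂ} (hw : w ∈ OmC) : ‖g w‖ ≤ Real.pi ^ 2 / 4 * ‖w‖ := by
  simpa using norm_g_sub_le hw zero_mem_OmC

theorem norm_le_norm_g {w : ℂ} (hw : w ∈ OmC) : ‖w‖ ≤ ‖g w‖ := by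
  have := norm_F_le (norm_g_le_one hw)
  rwa [F_g hw] at this

theorem g_eq_zero_iff {w : ℂ} (hw : w ∈ OmC) : g w = 0 ↔ w = 0 := by
  refine ⟨fun h => ?_, fun h => by rw [h, g_zero]⟩
  have := norm_le_norm_g hw
  rw [h, norm_zero] at this
  exact norm_le_zero_iff.1 this

theorem hasDerivAt_g {w : ℂ} (hw : w ∈ Om) : HasDerivAt g (deriv F (g w))⁻¹ w := by
  refine HasDerivAt.of_local_left_inverse (continuousAt_g hw) (hasDerivAt_F (norm_g_lt_one hw))
    (deriv_F_ne_zero (norm_g_lt_one hw)) ?_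
  filter_upwards [isOpen_Om.mem_nhds hw] with z hz
  exact F_g (Om_subset_OmC hz)

theorem differentiableOn_g : DifferentiableOn ℂ g Om :=
  fun _ hw => (hasDerivAt_g hw).differentiableAt.differentiableWithinAt

theorem analyticOnNhd_g : AnalyticOnNhd ℂ g Om := differentiableOn_g.analyticOnNhd isOpen_Om

theorem deriv_g {w : ℂ} (hw : w ∈ Om) : deriv g w = (deriv F (g w))⁻¹ := (hasDerivAt_g hw).deriv

theorem deriv_g_ne_zero {w : ℂ} (hw : w ∈ Om) : deriv g w ≠ 0 := by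
  rw [deriv_g hw]; exact inv_ne_zero (deriv_F_ne_zero (norm_g_lt_one hw))

theorem deriv_g_zero : deriv g 0 = (Real.pi : ℂ) ^ 2 / 8 := by
  rw [deriv_g zero_mem_Om, g_zero, deriv_F_zero, inv_div]

theorem norm_deriv_g_le {w : ℂ} (hw : w ∈ Om) : ‖deriv g w‖ ≤ Real.pi ^ 2 / 4 := by
  rw [deriv_g hw, norm_inv]
  have h := (re_deriv_F (norm_g_lt_one hw)).trans (re_le_norm _)
  have hpi : (0 : ℝ) < 4 / Real.pi ^ 2 := by positivity
  calc ‖deriv F (g w)‖⁻¹ ≤ (4 / Real.pi ^ 2)⁻¹ := by gcongr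
    _ = Real.pi ^ 2 / 4 := by rw [inv_div]

theorem g_neg {w : ℂ} (hw : w ∈ OmC) : g (-w) = -g w := by
  have h := norm_g_le_one hw
  conv_lhs => rw [← F_g hw, ← F_neg]
  exact g_F (by simpa using h)

theorem sublevel_eq {r : ℝ} (hr : r < 1) : {w | w ∈ Om ∧ ‖g w‖ ≤ r} = F '' closedBall 0 r := by
  ext w
  constructor
  · rintro ⟨h1, h2⟩
    exact ⟨g w, by simpa using h2, F_g (Om_subset_OmC h1)⟩
  · rintro ⟨z, hz, rfl⟩
    have hz1 : ‖z‖ ≤ r := by simpa using hz
    exact ⟨F_mem_Om (hz1.trans_lt hr), by rwa [g_F (hz1.trans hr.le)]⟩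

theorem isCompact_sublevel {r : ℝ} (hr : r < 1) : IsCompact {w | w ∈ Om ∧ ‖g w‖ ≤ r} := by
  rw [sublevel_eq hr]
  exact (isCompact_closedBall 0 r).image_of_continuousOn
    (continuousOn_F.mono (closedBall_subset_closedBall hr.le))

end Vale.Agent.P248Z.Lens
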