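import Vale.Agent.P248Z.Lens.Series
import Mathlib.Analysis.Calculus.UniformLimitsDeriv
import Mathlib.Analysis.Convex.Deriv
import Mathlib.Analysis.SpecialFunctions.Trigonometric.ArctanDeriv
import Mathlib.Analysis.SpecialFunctions.Log.Deriv

/-!
# The lens: boundary values of `F` and the profile `lam`
-/

namespace Vale.Agent.P248Z.Lens

open Complex Metric Set Filter Topology

theorem norm_exp_I (t : ℝ) : ‖exp ((t : ℂ) * I)‖ = 1 := norm_exp_ofReal_mul_I t

theorem continuous_F_exp : Continuous (fun t : ℝ => F (exp ((t : ℂ) * I))) := by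
  refine continuousOn_F.comp_continuous (by fun_prop) fun t => ?_
  simp

theorem continuousAt_A {w : ℂ} (hw : w.im ≠ 0) : ContinuousAt A w := by
  refine (hasDerivAt_A ?_ ?_).continuousAt
  · right; simpa using hw
  · right; simpa using hw

theorem A_exp {t : ℝ} (ht : t ∈ Ioo 0 Real.pi) :
    A (exp ((t : ℂ) * I)) = (-(Real.log (Real.tan (t / 2)) : ℂ) + (Real.pi / 2 : ℂ) * I) / 2 := by
  have hc : 0 < Real.cos (t / 2) :=
    Real.cos_pos_of_mem_Ioo ⟨by linarith [ht.1, Real.pi_pos], by linarith [ht.2]⟩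
  have hs : 0 < Real.sin (t / 2) :=
    Real.sin_pos_of_pos_of_lt_pi (by linarith [ht.1]) (by linarith [ht.2, Real.pi_pos])
  have hct : Real.cos t = 2 * Real.cos (t / 2) ^ 2 - 1 := by
    rw [← Real.cos_two_mul]; congr 1; ring
  have hst : Real.sin t = 2 * Real.sin (t / 2) * Real.cos (t / 2) := by
    rw [← Real.sin_two_mul]; congr 1; ring
  have hsc := Real.sin_sq_add_cos_sq (t / 2)
  have e1 : 1 + exp ((t : ℂ) * I) =
      ((2 * Real.cos (t / 2) : ℝ) : ℂ) * exp (((t / 2 : ℝ) : ℂ) * I) := by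
    apply Complex.ext
    · simp only [add_re, one_re, exp_ofReal_mul_I_re, re_ofReal_mul]
      rw [hct]; ring
    · simp only [add_im, one_im, exp_ofReal_mul_I_im, im_ofReal_mul]
      rw [hst]; ring
  have e2 : 1 - exp ((t : ℂ) * I) =
      ((2 * Real.sin (t / 2) : ℝ) : ℂ) * exp (((t / 2 - Real.pi / 2 : ℝ) : ℂ) * I) := by
    apply Complex.ext
    · simp only [sub_re, one_re, exp_ofReal_mul_I_re, re_ofReal_mul, Real.cos_sub_pi_div_two]
      rw [hct]; nlinarith
    · simp only [sub_im, one_im, exp_ofReal_mul_I_im, im_ofReal_mul, Real.sin_sub_pi_div_two]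
      rw [hst]; ring
  have l1 : log (exp (((t / 2 : ℝ) : ℂ) * I)) = ((t / 2 : ℝ) : ℂ) * I := by
    apply log_exp
    · simp only [mul_im, ofReal_re, I_im, ofReal_im, I_re]; linarith [ht.1, Real.pi_pos]
    · simp only [mul_im, ofReal_re, I_im, ofReal_im, I_re]; linarith [ht.2, Real.pi_pos]
  have l2 : log (exp (((t / 2 - Real.pi / 2 : ℝ) : ℂ) * I)) =
      ((t / 2 - Real.pi / 2 : ℝ) : ℂ) * I := by
    apply log_exp
    · simp only [mul_im, ofReal_re, I_im, ofReal_im, I_re]; linarith [ht.1, Real.pi_pos]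
    · simp only [mul_im, ofReal_re, I_im, ofReal_im, I_re]; linarith [ht.2, Real.pi_pos]
  unfold A
  rw [e1, e2, log_ofReal_mul (by positivity) (exp_ne_zero _),
    log_ofReal_mul (by positivity) (exp_ne_zero _), l1, l2, Real.tan_eq_sin_div_cos,
    Real.log_div hs.ne' hc.ne', Real.log_mul two_ne_zero hc.ne', Real.log_mul two_ne_zero hs.ne']
  push_cast
  ring

theorem hasDerivAt_F_radial {r : ℝ} (hr : r ∈ Ioo (0 : ℝ) 1) (t : ℝ) :
    HasDerivAt (fun t : ℝ => F ((r : ℂ) * exp ((t : ℂ) * I)))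
      (I * (8 / (Real.pi : ℂ) ^ 2 * A ((r : ℂ) * exp ((t : ℂ) * I)))) t := by
  have hn : ‖(r : ℂ) * exp ((t : ℂ) * I)‖ < 1 := norm_radial_lt (norm_exp_I t).le hr
  have h2 : HasDerivAt (fun z : ℂ => (r : ℂ) * exp (z * I))
      ((r : ℂ) * (exp ((t : ℂ) * I) * I)) (t : ℂ) := by
    simpa using (((hasDerivAt_id (t : ℂ)).mul_const I).cexp).const_mul (r : ℂ)
  have h3 := ((hasDerivAt_F hn).comp (t : ℂ) h2).comp_ofReal
  rw [← mul_deriv_F hn]
  convert! h3 using 1
  ring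

theorem hasDerivAt_F_exp_aux {t : ℝ} (ht : t ∈ Ioo 0 Real.pi) :
    HasDerivAt (fun t : ℝ => F (exp ((t : ℂ) * I)))
      (I * (8 / (Real.pi : ℂ) ^ 2 * A (exp ((t : ℂ) * I)))) t := by
  refine hasDerivAt_of_tendstoLocallyUniformlyOn (l := 𝓝[<] (1 : ℝ)) (s := Ioo 0 Real.pi)
    (f := fun (r : ℝ) (t : ℝ) => F ((r : ℂ) * exp ((t : ℂ) * I)))
    (f' := fun (r : ℝ) (t : ℝ) => I * (8 / (Real.pi : ℂ) ^ 2 * A ((r : ℂ) * exp ((t : ℂ) * I))))
    (g' := fun t : ℝ => I * (8 / (Real.pi : ℂ) ^ 2 * A (exp ((t : ℂ) * I))))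
    isOpen_Ioo ?_ ?_ ?_ ht
  · rw [tendstoLocallyUniformlyOn_iff_forall_tendsto]
    intro x hx
    have him : (exp ((x : ℂ) * I)).im ≠ 0 := by
      rw [exp_ofReal_mul_I_im]; exact (Real.sin_pos_of_pos_of_lt_pi hx.1 hx.2).ne'
    have hA := continuousAt_A him
    have c1 : Tendsto (fun y : ℝ × ℝ => exp ((y.2 : ℂ) * I)) (𝓝 (1, x))
        (𝓝 (exp ((x : ℂ) * I))) := by
      have : Continuous (fun y : ℝ × ℝ => exp ((y.2 : ℂ) * I)) := by fun_prop
      exact this.tendsto (1, x)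
    have c2 : Tendsto (fun y : ℝ × ℝ => (y.1 : ℂ) * exp ((y.2 : ℂ) * I)) (𝓝 (1, x))
        (𝓝 (exp ((x : ℂ) * I))) := by
      have : Continuous (fun y : ℝ × ℝ => (y.1 : ℂ) * exp ((y.2 : ℂ) * I)) := by fun_prop
      simpa using this.tendsto (1, x)
    have d1 := ((hA.tendsto.comp c1).const_mul (8 / (Real.pi : ℂ) ^ 2)).const_mul I
    have d2 := ((hA.tendsto.comp c2).const_mul (8 / (Real.pi : ℂ) ^ 2)).const_mul I
    have := (d1.prodMk_nhds d2).mono_right (nhds_le_uniformity _)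
    refine this.mono_left ?_
    rw [nhds_prod_eq]
    exact prod_mono nhdsWithin_le_nhds nhdsWithin_le_nhds
  · filter_upwards [Ioo_mem_nhdsLT (zero_lt_one' ℝ)] with r hr x _
    exact hasDerivAt_F_radial hr x
  · intro x _
    exact tendsto_F_radial (norm_exp_I x).le

theorem hasDerivAt_F_exp {t : ℝ} (ht : t ∈ Ioo 0 Real.pi) :
    HasDerivAt (fun t : ℝ => F (exp ((t : ℂ) * I)))
      (((-2 / Real.pi : ℝ) : ℂ) +
        ((-4 / Real.pi ^ 2 * Real.log (Real.tan (t / 2)) : ℝ) : ℂ) * I) t := by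
  have h := hasDerivAt_F_exp_aux ht
  rw [A_exp ht] at h
  convert! h using 1
  have hpi : (Real.pi : ℂ) ≠ 0 := by exact_mod_cast Real.pi_ne_zero
  push_cast
  field_simp
  linear_combination (-8 * (Real.pi : ℂ)) * I_sq

theorem hasDerivAt_re_F_exp {t : ℝ} (ht : t ∈ Ioo 0 Real.pi) :
    HasDerivAt (fun t : ℝ => (F (exp ((t : ℂ) * I))).re) (-2 / Real.pi) t := by
  have h := reCLM.hasFDerivAt.comp_hasDerivAt t (hasDerivAt_F_exp ht)
  convert! h using 1
  simp only [reCLM_apply, add_re, ofReal_re, mul_re, I_re, ofReal_im, I_im]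
  ring

theorem hasDerivAt_im_F_exp {t : ℝ} (ht : t ∈ Ioo 0 Real.pi) :
    HasDerivAt (fun t : ℝ => (F (exp ((t : ℂ) * I))).im)
      (-4 / Real.pi ^ 2 * Real.log (Real.tan (t / 2))) t := by
  have h := imCLM.hasFDerivAt.comp_hasDerivAt t (hasDerivAt_F_exp ht)
  convert! h using 1
  simp only [imCLM_apply, add_im, ofReal_re, mul_im, I_re, ofReal_im, I_im]
  ring

theorem re_F_I : (F I).re = 0 := by
  have h1 : F (-I) = -F I := F_neg I
  have h2 : F (-I) = (starRingEnd ℂ) (F I) := by rw [← F_conj, conj_I]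
  have := congrArg re (h1.symm.trans h2)
  simp only [neg_re, conj_re] at this
  linarith

theorem im_F_one : (F 1).im = 0 := by
  have h2 : F 1 = (starRingEnd ℂ) (F 1) := by rw [← F_conj, map_one]
  have := congrArg im h2
  simp only [conj_im] at this
  linarith

theorem re_F_exp_of_nonneg {t : ℝ} (ht : t ∈ Icc 0 Real.pi) :
    (F (exp ((t : ℂ) * I))).re = 1 - 2 * t / Real.pi := by
  set φ : ℝ → ℝ := fun t => (F (exp ((t : ℂ) * I))).re + 2 * t / Real.pi with hφ
  have hc : ContinuousOn φ (Icc 0 Real.pi) :=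
    ((continuous_re.comp continuous_F_exp).add (by fun_prop)).continuousOn
  have hd : ∀ x ∈ interior (Icc 0 Real.pi), HasDerivAt φ 0 x := by
    intro x hx
    rw [interior_Icc] at hx
    have h2 : HasDerivAt (fun t : ℝ => 2 * t / Real.pi) (2 / Real.pi) x := by
      simpa using ((hasDerivAt_id x).const_mul 2).div_const Real.pi
    convert! (hasDerivAt_re_F_exp hx).add h2 using 1
    ring
  have hdiff : DifferentiableOn ℝ φ (interior (Icc 0 Real.pi)) :=
    fun x hx => (hd x hx).differentiableAt.differentiableWithinAt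
  have m1 := monotoneOn_of_deriv_nonneg (convex_Icc _ _) hc hdiff
    (fun x hx => by rw [(hd x hx).deriv])
  have m2 := antitoneOn_of_deriv_nonpos (convex_Icc _ _) hc hdiff
    (fun x hx => by rw [(hd x hx).deriv])
  have hmid : Real.pi / 2 ∈ Icc 0 Real.pi := ⟨by positivity, by linarith [Real.pi_pos]⟩
  have e : φ t = φ (Real.pi / 2) := by
    rcases le_total t (Real.pi / 2) with h | h
    · exact le_antisymm (m1 ht hmid h) (m2 ht hmid h)
    · exact le_antisymm (m2 hmid ht h) (m1 hmid ht h)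
  have e2 : φ (Real.pi / 2) = 1 := by
    simp only [hφ]
    have : exp (((Real.pi / 2 : ℝ) : ℂ) * I) = I := by
      push_cast; exact exp_pi_div_two_mul_I
    rw [this, re_F_I]
    field_simp
    ring
  have := e.trans e2
  simp only [hφ] at this
  linarith

theorem F_exp_neg (t : ℝ) :
    F (exp (((-t : ℝ) : ℂ) * I)) = (starRingEnd ℂ) (F (exp ((t : ℂ) * I))) := by
  rw [← F_conj, ← exp_conj]
  simp

/-- Real part of the boundary values. -/
theorem re_F_exp {t : ℝ} (ht : |t| ≤ Real.pi) :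
    (F (exp ((t : ℂ) * I))).re = 1 - 2 * |t| / Real.pi := by
  rcases le_total 0 t with h | h
  · rw [abs_of_nonneg h] at ht ⊢
    exact re_F_exp_of_nonneg ⟨h, ht⟩
  · rw [abs_of_nonpos h] at ht ⊢
    have := re_F_exp_of_nonneg (t := -t) ⟨by linarith, ht⟩
    rw [F_exp_neg, conj_re] at this
    exact this

theorem F_one : F 1 = 1 := by
  apply Complex.ext
  · have := re_F_exp (t := 0) (by simpa using Real.pi_pos.le)
    simpa using this
  · simpa using im_F_one

theorem norm_F_le {w : ℂ} (hw : ‖w‖ ≤ 1) : ‖F w‖ ≤ ‖w‖ := by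
  have hs : HasSum (fun k : ℕ => 1 / (2 * (k : ℝ) + 1) ^ 2) (Real.pi ^ 2 / 8) := by
    have h1 := F_one
    unfold F at h1
    have hpi : (Real.pi : ℂ) ≠ 0 := by exact_mod_cast Real.pi_ne_zero
    have h2 : ∑' k : ℕ, (1 : ℂ) ^ (2 * k + 1) / (2 * (k : ℂ) + 1) ^ 2 =
        ((Real.pi ^ 2 / 8 : ℝ) : ℂ) := by
      push_cast
      field_simp at h1 ⊢
      linear_combination h1
    have h3 := (summable_term (w := 1) (by simp)).hasSum
    rw [h2] at h3
    rw [← Complex.hasSum_ofReal]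
    convert! h3 using 2 with k
    push_cast
    simp
  have hb : ‖∑' k : ℕ, w ^ (2 * k + 1) / (2 * (k : ℂ) + 1) ^ 2‖ ≤ ‖w‖ * (Real.pi ^ 2 / 8) := by
    refine tsum_of_norm_bounded (hs.mul_left ‖w‖) fun k => ?_
    rw [norm_term, mul_one_div]
    gcongr
    rw [pow_succ']
    exact mul_le_of_le_one_right (norm_nonneg _) (pow_le_one₀ (norm_nonneg _) hw)
  unfold F
  have hc8 : 8 / (Real.pi : ℂ) ^ 2 = ((8 / Real.pi ^ 2 : ℝ) : ℂ) := by push_cast; ring
  rw [norm_mul, hc8, Complex.norm_real, Real.norm_of_nonneg (by positivity)]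
  calc 8 / Real.pi ^ 2 * _ ≤ 8 / Real.pi ^ 2 * (‖w‖ * (Real.pi ^ 2 / 8)) := by gcongr
    _ = ‖w‖ := by field_simp

/-! ### The profile -/

theorem lam_of_mem {q : ℝ} (hq : q ∈ Icc (-1 : ℝ) 1) :
    lam q = (F (exp (((Real.pi * (1 - q) / 2 : ℝ) : ℂ) * I))).im := by
  unfold lam
  rw [min_eq_right hq.2, max_eq_right hq.1]

theorem continuous_lam : Continuous lam := by
  unfold lam
  exact continuous_im.comp (continuous_F_exp.comp
    (g := fun t : ℝ => F (exp ((t : ℂ) * I)))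
    (f := fun q : ℝ => Real.pi * (1 - max (-1) (min 1 q)) / 2) (by fun_prop))

theorem lam_one : lam 1 = 0 := by
  rw [lam_of_mem ⟨by norm_num, le_rfl⟩]
  simpa using im_F_one

theorem lam_neg_of_mem {q : ℝ} (hq : q ∈ Icc (-1 : ℝ) 1) : lam (-q) = lam q := by
  rw [lam_of_mem hq, lam_of_mem ⟨by linarith [hq.2], by linarith [hq.1]⟩]
  have : exp (((Real.pi * (1 - -q) / 2 : ℝ) : ℂ) * I) =
      -exp (((-(Real.pi * (1 - q) / 2) : ℝ) : ℂ) * I) := by
    rw [← exp_add_pi_mul_I]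
    congr 1
    push_cast
    ring
  rw [this, F_neg, F_exp_neg]
  simp

theorem lam_neg_one : lam (-1) = 0 := by
  rw [lam_neg_of_mem ⟨by norm_num, le_rfl⟩, lam_one]

theorem lam_of_one_le {q : ℝ} (hq : 1 ≤ q) : lam q = 0 := by
  rw [← lam_one]
  unfold lam
  rw [min_eq_left hq, min_self]

theorem lam_of_le_neg_one {q : ℝ} (hq : q ≤ -1) : lam q = 0 := by
  rw [← lam_neg_one]
  unfold lam
  rw [min_eq_right (by linarith : q ≤ 1), max_eq_left hq,
    min_eq_right (by norm_num : (-1 : ℝ) ≤ 1), max_self]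

theorem lam_of_one_le_abs {q : ℝ} (hq : 1 ≤ |q|) : lam q = 0 := by
  rcases le_abs.1 hq with h | h
  · exact lam_of_one_le h
  · exact lam_of_le_neg_one (by linarith)

theorem lam_neg (q : ℝ) : lam (-q) = lam q := by
  rcases le_total |q| 1 with h | h
  · exact lam_neg_of_mem (abs_le.1 h)
  · rw [lam_of_one_le_abs h, lam_of_one_le_abs (by simpa using h)]

theorem lam_abs (q : ℝ) : lam |q| = lam q := by
  rcases abs_choice q with h | h <;> rw [h]
  exact lam_neg q

theorem hasDerivAt_lam {q : ℝ} (hq : q ∈ Ioo (-1 : ℝ) 1) :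
    HasDerivAt lam (2 / Real.pi * Real.log (Real.tan (Real.pi * (1 - q) / 4))) q := by
  have hpi := Real.pi_pos
  have ht : Real.pi * (1 - q) / 2 ∈ Ioo 0 Real.pi :=
    ⟨by have := hq.2; have : 0 < 1 - q := by linarith
        positivity, by nlinarith [hq.1]⟩
  have h2 : HasDerivAt (fun q : ℝ => Real.pi * (1 - q) / 2) (-Real.pi / 2) q := by
    simpa using (((hasDerivAt_id q).const_sub 1).const_mul Real.pi).div_const 2
  have h3 := (hasDerivAt_im_F_exp ht).comp q h2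
  have h4 : lam =ᶠ[𝓝 q] fun q : ℝ => (F (exp (((Real.pi * (1 - q) / 2 : ℝ) : ℂ) * I))).im := by
    filter_upwards [Ioo_mem_nhds hq.1 hq.2] with x hx
    exact lam_of_mem (Ioo_subset_Icc_self hx)
  refine HasDerivAt.congr_of_eventuallyEq ?_ h4
  convert! h3 using 1
  rw [show Real.pi * (1 - q) / 2 / 2 = Real.pi * (1 - q) / 4 by ring]
  field_simp
  ring

theorem strictAntiOn_deriv_lam : StrictAntiOn (deriv lam) (Ioo (-1 : ℝ) 1) := by
  have hpi := Real.pi_pos
  intro a ha b hb hab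
  rw [(hasDerivAt_lam ha).deriv, (hasDerivAt_lam hb).deriv]
  have hb0 : 0 < Real.pi * (1 - b) / 4 := by
    have : 0 < 1 - b := by linarith [hb.2]
    positivity
  have ha1 : Real.pi * (1 - a) / 4 < Real.pi / 2 := by nlinarith [ha.1]
  have hlt : Real.pi * (1 - b) / 4 < Real.pi * (1 - a) / 4 := by nlinarith
  have t0 : 0 < Real.tan (Real.pi * (1 - b) / 4) :=
    Real.tan_pos_of_pos_of_lt_pi_div_two hb0 (by linarith)
  have t1 := Real.tan_lt_tan_of_nonneg_of_lt_pi_div_two hb0.le ha1 hlt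
  have := Real.log_lt_log t0 t1
  have h2 : 0 < 2 / Real.pi := by positivity
  exact mul_lt_mul_of_pos_left this h2

theorem strictConcaveOn_lam : StrictConcaveOn ℝ (Icc (-1 : ℝ) 1) lam :=
  StrictAntiOn.strictConcaveOn_of_deriv (convex_Icc _ _) continuous_lam.continuousOn
    (by rw [interior_Icc]; exact strictAntiOn_deriv_lam)

theorem concaveOn_lam : ConcaveOn ℝ (Icc (-1 : ℝ) 1) lam := strictConcaveOn_lam.concaveOn

theorem lam_pos {q : ℝ} (hq : |q| < 1) : 0 < lam q := by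
  obtain ⟨h1, h2⟩ := abs_lt.1 hq
  have := strictConcaveOn_lam.2 (show (-1 : ℝ) ∈ Icc (-1 : ℝ) 1 from ⟨le_rfl, by norm_num⟩)
    (show (1 : ℝ) ∈ Icc (-1 : ℝ) 1 from ⟨by norm_num, le_rfl⟩)
    (by norm_num) (show 0 < (1 - q) / 2 by linarith) (show 0 < (1 + q) / 2 by linarith) (by ring)
  rw [lam_one, lam_neg_one] at this
  simp only [smul_eq_mul, mul_zero, add_zero] at this
  convert! this using 2
  ring

theorem lam_zero_pos : 0 < lam 0 := lam_pos (by simp)

theorem lam_nonneg (q : ℝ) : 0 ≤ lam q := by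
  rcases lt_or_ge |q| 1 with h | h
  · exact (lam_pos h).le
  · exact (lam_of_one_le_abs h).ge

theorem im_F_exp_of_nonneg {t : ℝ} (ht : t ∈ Icc 0 Real.pi) :
    (F (exp ((t : ℂ) * I))).im = lam (1 - 2 * t / Real.pi) := by
  have hpi := Real.pi_pos
  have h1 : 2 * t / Real.pi ≤ 2 := by rw [div_le_iff₀ hpi]; linarith [ht.2]
  have h0 : 0 ≤ 2 * t / Real.pi := by have := ht.1; positivity
  rw [lam_of_mem ⟨by linarith, by linarith⟩]
  congr 5
  field_simp
  ring

theorem im_F_exp_of_nonpos {t : ℝ} (ht : t ∈ Icc (-Real.pi) 0) :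
    (F (exp ((t : ℂ) * I))).im = -lam (1 - 2 * (-t) / Real.pi) := by
  have := im_F_exp_of_nonneg (t := -t) ⟨by linarith [ht.2], by linarith [ht.1]⟩
  rw [F_exp_neg, conj_im] at this
  linarith

/-- Imaginary part of the boundary values. -/
theorem abs_im_F_exp {t : ℝ} (ht : |t| ≤ Real.pi) :
    |(F (exp ((t : ℂ) * I))).im| = lam (1 - 2 * |t| / Real.pi) := by
  rcases le_total 0 t with h | h
  · rw [abs_of_nonneg h] at ht ⊢
    rw [im_F_exp_of_nonneg ⟨h, ht⟩, abs_of_nonneg (lam_nonneg _)]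
  · rw [abs_of_nonpos h] at ht ⊢
    rw [im_F_exp_of_nonpos ⟨by linarith, h⟩, abs_neg, abs_of_nonneg (lam_nonneg _)]

theorem abs_im_F_exp' {t : ℝ} (ht : |t| ≤ Real.pi) :
    |(F (exp ((t : ℂ) * I))).im| = lam (F (exp ((t : ℂ) * I))).re := by
  rw [abs_im_F_exp ht, re_F_exp ht]

end Vale.Agent.P248Z.Lens
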