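import Mathlib.Analysis.SpecialFunctions.Complex.LogBounds
import Mathlib.Analysis.SpecialFunctions.Trigonometric.Basic

/-!
# The lens: definitions

`F` maps the unit disc conformally onto the lens `Om`; `g` is its inverse, `lam` the profile of
the lens.
-/

namespace Vale.Agent.P248Z.Lens

open Complex

/-- `F w = (8/π²) ∑_{k odd} w^k / k²`. -/
noncomputable def F (w : ℂ) : ℂ :=
  8 / (Real.pi : ℂ) ^ 2 * ∑' k : ℕ, w ^ (2 * k + 1) / (2 * (k : ℂ) + 1) ^ 2

/-- The profile of the lens: the imaginary part of the upper boundary point with real part `q`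
(zero outside `[-1,1]`). -/
noncomputable def lam (q : ℝ) : ℝ :=
  (F (exp (((Real.pi * (1 - max (-1) (min 1 q)) / 2 : ℝ) : ℂ) * I))).im

/-- The open lens. -/
def Om : Set ℂ := {w | |w.re| < 1 ∧ |w.im| < lam w.re}

/-- The closed lens. -/
def OmC : Set ℂ := {w | |w.re| ≤ 1 ∧ |w.im| ≤ lam w.re}

/-- The inverse of `F` on the closed disc. -/
noncomputable def g : ℂ → ℂ := Function.invFunOn F (Metric.closedBall 0 1)

/-- `A w = (log (1 + w) - log (1 - w)) / 2`, the inverse hyperbolic tangent. -/
noncomputable def A (w : ℂ) : ℂ := (log (1 + w) - log (1 - w)) / 2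

end Vale.Agent.P248Z.Lens
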