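import Vale.Agent.P248Z.Lens.Defs
import Mathlib.Analysis.Complex.LocallyUniformLimit
import Mathlib.Analysis.PSeries
import Mathlib.Analysis.SpecialFunctions.Complex.LogDeriv
import Mathlib.MeasureTheory.Integral.IntervalIntegral.FundThmCalculus

/-!
# The lens: the power series of `F`, its derivative, univalence on the closed disc
-/

namespace Vale.Agent.P248Z.Lens

open Complex Metric Set Filter Topology

theorem summable_inv_sq : Summable (fun k : ℕ => 1 / (2 * (k : ℝ) + 1) ^ 2) := by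
  have h : Summable (fun k : ℕ => 1 / ((k + 1 : ℕ) : ℝ) ^ 2) :=
    (summable_nat_add_iff (f := fun n : ℕ => 1 / (n : ℝ) ^ 2) 1).2
      (Real.summable_one_div_nat_pow.2 (by norm_num))
  refine h.of_nonneg_of_le (fun k => by positivity) (fun k => ?_)
  push_cast
  gcongr
  have : (0 : ℝ) ≤ k := Nat.cast_nonneg k
  linarith

theorem norm_term (k : ℕ) (w : ℂ) :
    ‖w ^ (2 * k + 1) / (2 * (k : ℂ) + 1) ^ 2‖ = ‖w‖ ^ (2 * k + 1) / (2 * (k : ℝ) + 1) ^ 2 := by
  have h : ‖(2 * (k : ℂ) + 1)‖ = 2 * (k : ℝ) + 1 := by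
    have : (2 * (k : ℂ) + 1) = ((2 * (k : ℝ) + 1 : ℝ) : ℂ) := by push_cast; ring
    rw [this, Complex.norm_real, Real.norm_of_nonneg (by positivity)]
  rw [norm_div, norm_pow, norm_pow, h]

theorem norm_term_le (k : ℕ) {w : ℂ} (hw : ‖w‖ ≤ 1) :
    ‖w ^ (2 * k + 1) / (2 * (k : ℂ) + 1) ^ 2‖ ≤ 1 / (2 * (k : ℝ) + 1) ^ 2 := by
  rw [norm_term]
  gcongr
  exact pow_le_one₀ (norm_nonneg _) hw

theorem summable_term {w : ℂ} (hw : ‖w‖ ≤ 1) :
    Summable (fun k : ℕ => w ^ (2 * k + 1) / (2 * (k : ℂ) + 1) ^ 2) :=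
  Summable.of_norm_bounded summable_inv_sq (fun k => norm_term_le k hw)

theorem continuousOn_F : ContinuousOn F (closedBall 0 1) := by
  unfold F
  refine continuousOn_const.mul ?_
  refine continuousOn_tsum (fun k => by fun_prop) summable_inv_sq (fun k w hw => ?_)
  exact norm_term_le k (by simpa using hw)

theorem differentiableOn_F : DifferentiableOn ℂ F (ball 0 1) := by
  unfold F
  refine (differentiableOn_const _).mul ?_
  refine differentiableOn_tsum_of_summable_norm summable_inv_sq (fun k => by fun_prop)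
    isOpen_ball (fun k w hw => ?_)
  exact norm_term_le k (le_of_lt (by simpa using hw))

theorem analyticOnNhd_F : AnalyticOnNhd ℂ F (ball 0 1) :=
  differentiableOn_F.analyticOnNhd isOpen_ball

@[simp] theorem F_zero : F 0 = 0 := by simp [F]

theorem F_neg (w : ℂ) : F (-w) = -F w := by
  unfold F
  rw [← mul_neg, ← tsum_neg]
  congr 1
  refine tsum_congr fun k => ?_
  rw [Odd.neg_pow ⟨k, rfl⟩, neg_div]

theorem F_conj (w : ℂ) : F ((starRingEnd ℂ) w) = (starRingEnd ℂ) (F w) := by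
  unfold F
  rw [map_mul, Complex.conj_tsum]
  congr 1
  · simp [map_ofNat]
  · refine tsum_congr fun k => ?_
    simp [map_ofNat]

theorem two_mul_add_one_ne (k : ℕ) : (2 * (k : ℂ) + 1) ≠ 0 := by
  have : (2 * (k : ℂ) + 1) = ((2 * k + 1 : ℕ) : ℂ) := by push_cast; ring
  rw [this]
  exact Nat.cast_ne_zero.2 (by omega)

theorem hasSum_deriv_F {w : ℂ} (hw : ‖w‖ < 1) :
    HasSum (fun k : ℕ => 8 / (Real.pi : ℂ) ^ 2 * (w ^ (2 * k) / (2 * (k : ℂ) + 1)))
      (deriv F w) := by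
  have hd : DifferentiableOn ℂ
      (fun w : ℂ => ∑' k : ℕ, w ^ (2 * k + 1) / (2 * (k : ℂ) + 1) ^ 2) (ball 0 1) :=
    differentiableOn_tsum_of_summable_norm summable_inv_sq (fun k => by fun_prop)
      isOpen_ball (fun k w hw => norm_term_le k (le_of_lt (by simpa using hw)))
  have h := hasSum_deriv_of_summable_norm (F := fun (k : ℕ) (w : ℂ) =>
      w ^ (2 * k + 1) / (2 * (k : ℂ) + 1) ^ 2) (U := ball 0 1) summable_inv_sq
      (fun k => by fun_prop) isOpen_ball (fun k w hw => norm_term_le k (le_of_lt (by simpa using hw)))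
      (z := w) (by simpa using hw)
  have e : deriv F w = 8 / (Real.pi : ℂ) ^ 2 *
      deriv (fun w : ℂ => ∑' k : ℕ, w ^ (2 * k + 1) / (2 * (k : ℂ) + 1) ^ 2) w := by
    unfold F
    exact deriv_const_mul _ (hd.differentiableAt (isOpen_ball.mem_nhds (by simpa using hw)))
  rw [e]
  refine HasSum.mul_left _ ?_
  convert! h using 2 with k
  have h1 : HasDerivAt (fun w : ℂ => w ^ (2 * k + 1) / (2 * (k : ℂ) + 1) ^ 2)
      (((2 * k + 1 : ℕ) : ℂ) * w ^ (2 * k) / (2 * (k : ℂ) + 1) ^ 2) w := by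
    simpa using (hasDerivAt_pow (2 * k + 1) w).div_const ((2 * (k : ℂ) + 1) ^ 2)
  rw [h1.deriv]
  have := two_mul_add_one_ne k
  push_cast
  field_simp

theorem hasSum_A {w : ℂ} (hw : ‖w‖ < 1) :
    HasSum (fun k : ℕ => w ^ (2 * k + 1) / (2 * (k : ℂ) + 1)) (A w) := by
  have h := ((hasSum_taylorSeries_log hw).add (hasSum_taylorSeries_neg_log hw)).div_const 2
  have hinj : Function.Injective (fun k : ℕ => 2 * k + 1) := fun a b hab => by
    simpa using hab
  rw [← hinj.hasSum_iff] at h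
  · unfold A
    convert! h using 1
    funext k
    simp only [Function.comp]
    rw [show 2 * k + 1 + 1 = 2 * (k + 1) by ring, Even.neg_one_pow ⟨k + 1, by ring⟩]
    push_cast
    ring
  · intro n hn
    have : Even n := by
      rcases Nat.even_or_odd n with h | ⟨k, hk⟩
      · exact h
      · exact absurd ⟨k, hk.symm⟩ hn
    rw [Odd.neg_one_pow (this.add_one)]
    ring

theorem mul_deriv_F {w : ℂ} (hw : ‖w‖ < 1) : w * deriv F w = 8 / (Real.pi : ℂ) ^ 2 * A w := by
  have h1 := (hasSum_deriv_F hw).mul_left w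
  have h2 := (hasSum_A hw).mul_left (8 / (Real.pi : ℂ) ^ 2)
  refine h1.unique ?_
  convert h2 using 2 with k
  ring

theorem deriv_F_zero : deriv F 0 = 8 / (Real.pi : ℂ) ^ 2 := by
  have h1 := hasSum_deriv_F (w := 0) (by simp)
  refine h1.unique ?_
  convert hasSum_single 0 (fun k hk => ?_) using 1
  · simp
  · simp [hk]

theorem hasDerivAt_A {w : ℂ} (h1 : 1 + w ∈ slitPlane) (h2 : 1 - w ∈ slitPlane) :
    HasDerivAt A (1 / (1 - w ^ 2)) w := by
  have a1 : HasDerivAt (fun w : ℂ => log (1 + w)) (1 / (1 + w)) w := by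
    simpa using ((hasDerivAt_id w).const_add 1).clog h1
  have a2 : HasDerivAt (fun w : ℂ => log (1 - w)) (-1 / (1 - w)) w := by
    simpa using ((hasDerivAt_id w).const_sub 1).clog h2
  have n1 := slitPlane_ne_zero h1
  have n2 := slitPlane_ne_zero h2
  have n3 : 1 - w ^ 2 ≠ 0 := by
    rw [show 1 - w ^ 2 = (1 + w) * (1 - w) by ring]; exact mul_ne_zero n1 n2
  unfold A
  convert! (a1.sub a2).div_const 2 using 1
  field_simp
  ring

theorem one_sub_mem_slitPlane {w : ℂ} (hw : ‖w‖ < 1) : 1 - w ∈ slitPlane := by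
  rw [sub_eq_add_neg]; exact mem_slitPlane_of_norm_lt_one (by simpa using hw)

theorem re_inv_one_sub {z : ℂ} (hz : ‖z‖ < 1) : 1 / 2 ≤ (1 / (1 - z)).re := by
  have hn : 1 - z ≠ 0 := slitPlane_ne_zero (one_sub_mem_slitPlane hz)
  have hpos : 0 < normSq (1 - z) := normSq_pos.2 hn
  have h2 : normSq z < 1 := by
    rw [normSq_eq_norm_sq]; exact pow_lt_one₀ (norm_nonneg _) hz two_ne_zero
  rw [one_div (1 - z), inv_re, le_div_iff₀ hpos]
  simp only [normSq_apply, sub_re, one_re, sub_im, one_im] at h2 ⊢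
  nlinarith

theorem A_eq_integral {w : ℂ} (hw : ‖w‖ < 1) :
    A w = w * ∫ s in (0 : ℝ)..1, 1 / (1 - ((s : ℂ) * w) ^ 2) := by
  have hn : ∀ s ∈ uIcc (0 : ℝ) 1, ‖(s : ℂ) * w‖ < 1 := by
    intro s hs
    rw [uIcc_of_le zero_le_one] at hs
    rw [norm_mul, Complex.norm_real, Real.norm_of_nonneg hs.1]
    calc s * ‖w‖ ≤ 1 * ‖w‖ := by gcongr; exact hs.2
      _ < 1 := by simpa using hw
  have hd : ∀ s ∈ uIcc (0 : ℝ) 1, HasDerivAt (fun s : ℝ => A ((s : ℂ) * w))
      (w * (1 / (1 - ((s : ℂ) * w) ^ 2))) s := by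
    intro s hs
    have h1 := hasDerivAt_A (mem_slitPlane_of_norm_lt_one (hn s hs))
      (one_sub_mem_slitPlane (hn s hs))
    have h2 : HasDerivAt (fun z : ℂ => z * w) w (s : ℂ) := by
      simpa using (hasDerivAt_id (s : ℂ)).mul_const w
    have h3 := (h1.comp (s : ℂ) h2).comp_ofReal
    convert! h3 using 1
    ring
  have hc : ContinuousOn (fun s : ℝ => w * (1 / (1 - ((s : ℂ) * w) ^ 2))) (uIcc (0 : ℝ) 1) := by
    refine continuousOn_const.mul (continuousOn_const.div (by fun_prop) fun s hs => ?_)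
    refine slitPlane_ne_zero (one_sub_mem_slitPlane ?_)
    rw [norm_pow]; exact pow_lt_one₀ (norm_nonneg _) (hn s hs) two_ne_zero
  have := intervalIntegral.integral_eq_sub_of_hasDerivAt hd hc.intervalIntegrable
  rw [intervalIntegral.integral_const_mul] at this
  rw [this]
  simp [A]

theorem re_deriv_F {w : ℂ} (hw : ‖w‖ < 1) : 4 / Real.pi ^ 2 ≤ (deriv F w).re := by
  have hpi : (0 : ℝ) < Real.pi ^ 2 := by positivity
  have hc8 : 8 / (Real.pi : ℂ) ^ 2 = ((8 / Real.pi ^ 2 : ℝ) : ℂ) := by push_cast; ring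
  rcases eq_or_ne w 0 with rfl | h0
  · rw [deriv_F_zero, hc8, ofReal_re]
    gcongr; norm_num
  have hn : ∀ s ∈ uIcc (0 : ℝ) 1, ‖((s : ℂ) * w) ^ 2‖ < 1 := by
    intro s hs
    rw [uIcc_of_le zero_le_one] at hs
    rw [norm_pow]
    refine pow_lt_one₀ (norm_nonneg _) ?_ two_ne_zero
    rw [norm_mul, Complex.norm_real, Real.norm_of_nonneg hs.1]
    calc s * ‖w‖ ≤ 1 * ‖w‖ := by gcongr; exact hs.2
      _ < 1 := by simpa using hw
  have hc : ContinuousOn (fun s : ℝ => (1 / (1 - ((s : ℂ) * w) ^ 2))) (uIcc (0 : ℝ) 1) :=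
    continuousOn_const.div (by fun_prop) fun s hs =>
      slitPlane_ne_zero (one_sub_mem_slitPlane (hn s hs))
  have e : deriv F w = 8 / (Real.pi : ℂ) ^ 2 * ∫ s in (0 : ℝ)..1, 1 / (1 - ((s : ℂ) * w) ^ 2) := by
    apply mul_left_cancel₀ h0
    rw [mul_deriv_F hw, A_eq_integral hw]; ring
  have hre : (1 : ℝ) / 2 ≤ (∫ s in (0 : ℝ)..1, 1 / (1 - ((s : ℂ) * w) ^ 2)).re := by
    have hi := hc.intervalIntegrable (μ := MeasureTheory.volume)
    have := (intervalIntegral.intervalIntegral_re hi (𝕜 := ℂ))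
    simp only [RCLike.re_to_complex] at this
    rw [← this]
    have h2 : ∫ _ in (0 : ℝ)..1, (1 / 2 : ℝ) = 1 / 2 := by simp
    rw [← h2]
    refine intervalIntegral.integral_mono_on zero_le_one (by simp) ?_ fun s hs => ?_
    · exact (continuous_re.comp_continuousOn hc).intervalIntegrable
    · exact re_inv_one_sub (hn s (by rwa [uIcc_of_le zero_le_one]))
  rw [e, hc8, re_ofReal_mul]
  calc 4 / Real.pi ^ 2 = 8 / Real.pi ^ 2 * (1 / 2) := by ring
    _ ≤ _ := by gcongr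

theorem deriv_F_ne_zero {w : ℂ} (hw : ‖w‖ < 1) : deriv F w ≠ 0 := by
  intro h
  have := re_deriv_F hw
  rw [h, zero_re] at this
  have hpi : (0 : ℝ) < 4 / Real.pi ^ 2 := by positivity
  linarith

theorem hasDerivAt_F {w : ℂ} (hw : ‖w‖ < 1) : HasDerivAt F (deriv F w) w :=
  (differentiableOn_F.differentiableAt (isOpen_ball.mem_nhds (by simpa using hw))).hasDerivAt

theorem continuousOn_deriv_F : ContinuousOn (deriv F) (ball 0 1) :=
  analyticOnNhd_F.deriv.continuousOn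

theorem lower_bound_ball {a b : ℂ} (ha : ‖a‖ < 1) (hb : ‖b‖ < 1) :
    4 / Real.pi ^ 2 * ‖a - b‖ ≤ ‖F a - F b‖ := by
  have hn : ∀ s ∈ uIcc (0 : ℝ) 1, ‖b + (s : ℂ) * (a - b)‖ < 1 := by
    intro s hs
    rw [uIcc_of_le zero_le_one] at hs
    have := (convex_ball (0 : ℂ) 1).add_smul_sub_mem (x := b) (y := a) (by simpa using hb)
      (by simpa using ha) hs
    simpa using this
  have hd : ∀ s ∈ uIcc (0 : ℝ) 1, HasDerivAt (fun s : ℝ => F (b + (s : ℂ) * (a - b)))
      (deriv F (b + (s : ℂ) * (a - b)) * (a - b)) s := by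
    intro s hs
    have h2 : HasDerivAt (fun z : ℂ => b + z * (a - b)) (a - b) (s : ℂ) := by
      simpa using ((hasDerivAt_id (s : ℂ)).mul_const (a - b)).const_add b
    exact ((hasDerivAt_F (hn s hs)).comp (s : ℂ) h2).comp_ofReal
  have hc : ContinuousOn (fun s : ℝ => deriv F (b + (s : ℂ) * (a - b))) (uIcc (0 : ℝ) 1) :=
    continuousOn_deriv_F.comp (by fun_prop) fun s hs => by simpa using hn s hs
  have := intervalIntegral.integral_eq_sub_of_hasDerivAt hd
    (hc.mul continuousOn_const).intervalIntegrable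
  rw [intervalIntegral.integral_mul_const] at this
  simp only [ofReal_one, one_mul, add_sub_cancel, ofReal_zero, zero_mul, add_zero] at this
  rw [← this, norm_mul]
  gcongr
  refine le_trans ?_ (re_le_norm _)
  have hi := hc.intervalIntegrable (μ := MeasureTheory.volume)
  have := (intervalIntegral.intervalIntegral_re hi (𝕜 := ℂ))
  simp only [RCLike.re_to_complex] at this
  rw [← this]
  have h2 : ∫ _ in (0 : ℝ)..1, (4 / Real.pi ^ 2 : ℝ) = 4 / Real.pi ^ 2 := by simp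
  rw [← h2]
  refine intervalIntegral.integral_mono_on zero_le_one (by simp) ?_ fun s hs => ?_
  · exact (continuous_re.comp_continuousOn hc).intervalIntegrable
  · exact re_deriv_F (hn s (by rwa [uIcc_of_le zero_le_one]))

/-- Radial limit: `F (r w) → F w` as `r → 1⁻` on the closed disc. -/
theorem tendsto_F_radial {w : ℂ} (hw : ‖w‖ ≤ 1) :
    Tendsto (fun r : ℝ => F ((r : ℂ) * w)) (𝓝[<] 1) (𝓝 (F w)) := by
  have h1 : Tendsto (fun r : ℝ => (r : ℂ) * w) (𝓝[<] 1) (𝓝[closedBall 0 1] w) := by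
    refine tendsto_nhdsWithin_iff.2 ⟨?_, ?_⟩
    · have : Continuous (fun r : ℝ => (r : ℂ) * w) := by fun_prop
      simpa using (this.tendsto 1).mono_left (nhdsWithin_le_nhds (s := Iio 1))
    · filter_upwards [Ioo_mem_nhdsLT (zero_lt_one' ℝ)] with r hr
      rw [mem_closedBall_zero_iff, norm_mul, Complex.norm_real, Real.norm_of_nonneg hr.1.le]
      exact mul_le_one₀ hr.2.le (norm_nonneg _) hw
  exact (continuousOn_F w (by simpa using hw)).tendsto.comp h1

theorem norm_radial_lt {w : ℂ} (hw : ‖w‖ ≤ 1) {r : ℝ} (hr : r ∈ Ioo (0 : ℝ) 1) :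
    ‖(r : ℂ) * w‖ < 1 := by
  rw [norm_mul, Complex.norm_real, Real.norm_of_nonneg hr.1.le]
  calc r * ‖w‖ ≤ r * 1 := by gcongr; exact hr.1.le
    _ < 1 := by simpa using hr.2

/-- Noshiro–Warschawski bound on the closed disc. -/
theorem lower_bound {a b : ℂ} (ha : ‖a‖ ≤ 1) (hb : ‖b‖ ≤ 1) :
    4 / Real.pi ^ 2 * ‖a - b‖ ≤ ‖F a - F b‖ := by
  have h1 : Tendsto (fun r : ℝ => ‖F ((r : ℂ) * a) - F ((r : ℂ) * b)‖) (𝓝[<] 1)
      (𝓝 ‖F a - F b‖) := ((tendsto_F_radial ha).sub (tendsto_F_radial hb)).norm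
  have h2 : Tendsto (fun r : ℝ => 4 / Real.pi ^ 2 * ‖(r : ℂ) * a - (r : ℂ) * b‖) (𝓝[<] 1)
      (𝓝 (4 / Real.pi ^ 2 * ‖a - b‖)) := by
    have : Continuous (fun r : ℝ => 4 / Real.pi ^ 2 * ‖(r : ℂ) * a - (r : ℂ) * b‖) := by fun_prop
    simpa using (this.tendsto 1).mono_left (nhdsWithin_le_nhds (s := Iio 1))
  refine le_of_tendsto_of_tendsto h2 h1 ?_
  filter_upwards [Ioo_mem_nhdsLT (zero_lt_one' ℝ)] with r hr
  exact lower_bound_ball (norm_radial_lt ha hr) (norm_radial_lt hb hr)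

theorem injOn_F : InjOn F (closedBall 0 1) := by
  intro a ha b hb hab
  have := lower_bound (a := a) (b := b) (by simpa using ha) (by simpa using hb)
  rw [hab, sub_self, norm_zero] at this
  have hpi : (0 : ℝ) < 4 / Real.pi ^ 2 := by positivity
  have h0 : ‖a - b‖ ≤ 0 := by
    by_contra h
    have := mul_pos hpi (not_le.1 h)
    linarith
  exact sub_eq_zero.1 (norm_le_zero_iff.1 h0)

end Vale.Agent.P248Z.Lens
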